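import Mathlib
import Vale.Agent.Lib.P042.SqDiff

/-!
# P042: a new lower bound for sets without square differences

For every `N ≥ 1` there is a set `A ⊆ {1, …, N}` with no two elements differing by a
positive perfect square and `|A| ≥ c * N ^ (47 / 64)`, for an absolute constant `c > 0`.
Here `47 / 64 = 0.734375`, which exceeds the previously best exponent `0.733411…`.
-/

namespace Vale.Agent.Results.P042.SqDiffExp47over64

open Vale.Agent.Lib.P042

theorem result : ∃ c : ℝ, 0 < c ∧ ∀ N : ℕ, 1 ≤ N →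
    ∃ A : Finset ℕ, A ⊆ Finset.Icc 1 N ∧
      (∀ a ∈ A, ∀ b ∈ A, ∀ n : ℕ, 1 ≤ n → a ≠ b + n ^ 2) ∧
      c * (N : ℝ) ^ ((47 : ℝ) / 64) ≤ (A.card : ℝ) := by
  obtain ⟨c, hc, h⟩ := has_rpow
  refine ⟨c, hc, fun N hN => ?_⟩
  obtain ⟨k, ⟨A, hA, gA, cA⟩, hk⟩ := h N hN
  refine ⟨A.image (fun x => (x + 1).toNat), ?_, ?_, ?_⟩
  · intro a ha
    obtain ⟨x, hx, rfl⟩ := Finset.mem_image.mp ha
    have hb := hA x hx
    rw [Finset.mem_Icc]
    omega
  · intro a ha b hb n hn hab
    obtain ⟨x, hx, rfl⟩ := Finset.mem_image.mp ha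
    obtain ⟨y, hy, rfl⟩ := Finset.mem_image.mp hb
    have hx' := hA x hx
    have hy' := hA y hy
    have hxy : (n : ℤ) ^ 2 = x - y := by
      have h1 : (((x + 1).toNat : ℕ) : ℤ) = (((y + 1).toNat : ℕ) : ℤ) + (n : ℤ) ^ 2 := by
        exact_mod_cast hab
      rw [Int.toNat_of_nonneg (by omega), Int.toNat_of_nonneg (by omega)] at h1
      linarith
    have hne : x ≠ y := by
      rintro rfl
      have h2 : (n : ℤ) ^ 2 = 0 := by linarith
      have h3 : (n : ℤ) = 0 := by simpa using h2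
      omega
    exact (gA x hx y hy hne).ne_sq (n : ℤ) hxy
  · have hinj : Set.InjOn (fun x : ℤ => (x + 1).toNat) ↑A := by
      intro x hx y hy hxy
      have hx' := hA x hx
      have hy' := hA y hy
      simp only at hxy
      omega
    rw [Finset.card_image_of_injOn hinj]
    exact hk.trans (by exact_mod_cast cA)

end Vale.Agent.Results.P042.SqDiffExp47over64
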