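import Mathlib
import Vale.Agent.Lib.P042.Root

/-!
# P042: sets without square differences, exponent up to the root of an explicit equation

For every real `γ ≥ 0` with `42025 ^ γ ≤ 41 * 25 ^ γ + 2050` and every `N ≥ 1` there is a set
`A ⊆ {1, …, N}` with no two elements differing by a positive perfect square and
`|A| ≥ (N / 42051) ^ γ`.  The admissible exponents are exactly those up to the root
`γ* = 0.7343971…` of `42025 ^ γ = 41 * 25 ^ γ + 2050`; the second part records the admissible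
value `γ = 0.734397`.  The previously best exponent was `0.733411…`.
-/

namespace Vale.Agent.Results.P042.SqDiffRootExponent

open Vale.Agent.Lib.P042

theorem result :
    (∀ γ : ℝ, 0 ≤ γ → (42025 : ℝ) ^ γ ≤ 41 * (25 : ℝ) ^ γ + 2050 →
      ∀ N : ℕ, 1 ≤ N →
        ∃ A : Finset ℕ, A ⊆ Finset.Icc 1 N ∧
          (∀ a ∈ A, ∀ b ∈ A, ∀ n : ℕ, 1 ≤ n → a ≠ b + n ^ 2) ∧
          ((N : ℝ) / 42051) ^ γ ≤ (A.card : ℝ)) ∧
    (∀ N : ℕ, 1 ≤ N →
        ∃ A : Finset ℕ, A ⊆ Finset.Icc 1 N ∧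
          (∀ a ∈ A, ∀ b ∈ A, ∀ n : ℕ, 1 ≤ n → a ≠ b + n ^ 2) ∧
          ((N : ℝ) / 42051) ^ ((734397 : ℝ) / 1000000) ≤ (A.card : ℝ)) :=
  ⟨fun γ hγ0 hγ N hN => sqdiff_root γ hγ0 hγ N hN,
    fun N hN => sqdiff_root _ (by norm_num) root_instance N hN⟩

end Vale.Agent.Results.P042.SqDiffRootExponent
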